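import Vale.Agent.P331.Defs
import Mathlib.Probability.HasLaw

/-!
# One-sample matroid prophet inequalities: the model with random variables
-/

namespace Vale.Agent.P331R

open MeasureTheory ProbabilityTheory Vale.Agent.P331
open scoped ENNReal NNReal

variable {E : Type} [Fintype E] {M : Matroid E}

/-- The random variables of the problem on a probability space `(Ω, P)`: samples `S e` and values
`V e` of law `D e`, all mutually independent, with `E[OPT_M(V)]` finite, and a seed `ρ` for the
rule `R` that is independent of `(S, V)`. -/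
structure Model (R : OnlineRule M) {Ω : Type} [MeasurableSpace Ω] (P : Measure Ω)
    (D : E → Measure ℝ≥0) (ρ : Ω → R.Seed) (S V : E → Ω → ℝ≥0) : Prop where
  prob : IsProbabilityMeasure P
  sample_law : ∀ e, HasLaw (S e) (D e) P
  value_law : ∀ e, HasLaw (V e) (D e) P
  indep : iIndepFun (Sum.elim S V) P
  seed_law : HasLaw ρ R.law P
  seed_indep : IndepFun ρ (fun ω => (fun e => S e ω, fun e => V e ω)) P
  opt_finite : ∫⁻ ω, opt M (fun e => V e ω) ∂P < ∞

/-- `R` is `c`-competitive against the almighty adversary: for all laws, all random variables as in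
`Model` and every order that is a measurable function `π` of the seed, the samples and the values
(chosen after `M` and the laws), `c * E[OPT_M(V)] ≤ E[accepted value]`. -/
def Competitive (R : OnlineRule M) (c : ℝ≥0∞) : Prop :=
  ∀ (Ω : Type) [MeasurableSpace Ω] (P : Measure Ω) (D : E → Measure ℝ≥0) (ρ : Ω → R.Seed)
    (S V : E → Ω → ℝ≥0), Model R P D ρ S V →
    ∀ π : R.Seed × (E → ℝ≥0) × (E → ℝ≥0) → Order E, (∀ o, MeasurableSet (π ⁻¹' {o})) →
      c * ∫⁻ ω, opt M (fun e => V e ω) ∂P ≤
        ∫⁻ ω, R.gain (ρ ω) (fun e => S e ω) (fun e => V e ω)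
          (π (ρ ω, fun e => S e ω, fun e => V e ω)) ∂P

/-- The same against every order `π ω` that depends on the outcome `ω` in any way. -/
def CompetitiveAny (R : OnlineRule M) (c : ℝ≥0∞) : Prop :=
  ∀ (Ω : Type) [MeasurableSpace Ω] (P : Measure Ω) (D : E → Measure ℝ≥0) (ρ : Ω → R.Seed)
    (S V : E → Ω → ℝ≥0), Model R P D ρ S V → ∀ π : Ω → Order E,
      c * ∫⁻ ω, opt M (fun e => V e ω) ∂P ≤
        ∫⁻ ω, R.gain (ρ ω) (fun e => S e ω) (fun e => V e ω) (π ω) ∂P

/-- `c^*(M)`: the supremum of the competitive ratios of the rules for `M`. -/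
noncomputable def bestRatio (M : Matroid E) : ℝ≥0∞ :=
  sSup {c | ∃ R : OnlineRule M, Competitive R c}

end Vale.Agent.P331R
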