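import Vale.Agent.P331R45.Defs
import Vale.Agent.P331.F.FinalA
import Vale.Agent.P331.Bdl.B1

/-!
# From product measures to random variables
-/

namespace Vale.Agent.P331R

open MeasureTheory ProbabilityTheory Vale.Agent.P331
open scoped ENNReal NNReal

variable {E : Type} [Fintype E] {M : Matroid E}

section
variable {R : OnlineRule M} {Ω : Type} [MeasurableSpace Ω] {P : Measure Ω}
  {D : E → Measure ℝ≥0} {ρ : Ω → R.Seed} {S V : E → Ω → ℝ≥0}

theorem Model.isProb (h : Model R P D ρ S V) (e : E) : IsProbabilityMeasure (D e) := by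
  have := h.prob
  rw [← (h.value_law e).map_eq]
  exact Measure.isProbabilityMeasure_map (h.value_law e).aemeasurable

theorem Model.law_pair (h : Model R P D ρ S V) :
    HasLaw (fun ω => (fun e => S e ω, fun e => V e ω)) ((Measure.pi D).prod (Measure.pi D)) P := by
  have hD := h.isProb
  have hD' : ∀ i : E ⊕ E, IsProbabilityMeasure (Sum.elim D D i) := by
    rintro (e | e)
    · exact hD e
    · exact hD e
  have h1 : HasLaw (fun ω i => Sum.elim S V i ω) (Measure.pi (Sum.elim D D)) P := by
    refine h.indep.hasLaw_pi ?_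
    rintro (e | e)
    · exact h.sample_law e
    · exact h.value_law e
  have h2 := measurePreserving_sumPiEquivProdPi (X := fun _ : E ⊕ E => ℝ≥0) (Sum.elim D D)
  exact h2.hasLaw.comp h1

theorem Model.law_triple (h : Model R P D ρ S V) :
    HasLaw (fun ω => (ρ ω, fun e => S e ω, fun e => V e ω))
      (R.law.prod ((Measure.pi D).prod (Measure.pi D))) P := by
  have := h.prob
  exact h.seed_indep.hasLaw_prod h.seed_law h.law_pair

theorem Model.law_value (h : Model R P D ρ S V) :
    HasLaw (fun ω e => V e ω) (Measure.pi D) P := by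
  have hD := h.isProb
  exact (measurePreserving_snd (μ := Measure.pi D) (ν := Measure.pi D)).hasLaw.comp h.law_pair

theorem Model.opt_eq (h : Model R P D ρ S V) :
    ∫⁻ ω, opt M (fun e => V e ω) ∂P = ∫⁻ v, opt M v ∂(Measure.pi D) := by
  rw [← h.law_value.map_eq, lintegral_map' (measurable_opt M).aemeasurable
    h.law_value.aemeasurable]

end

theorem competitive_of {R : OnlineRule M} {c : ℝ≥0∞} (hR : R.IsCompetitive c) :
    Competitive R c := by
  intro Ω _ P D ρ S V h π hπ
  have h1 := hR D h.isProb (h.opt_eq ▸ h.opt_finite) π hπ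
  rw [h.opt_eq]
  refine h1.trans ?_
  rw [← h.law_triple.map_eq]
  exact lintegral_map_le _ _

theorem finite_order : Finite (Order E) := by
  classical
  have h : Function.Injective fun o : Order E => (⟨o.1, o.2.1⟩ : {l : List E // l.Nodup}) := by
    intro a b hab
    exact Subtype.ext (congrArg (fun l : {l : List E // l.Nodup} => l.1) hab)
  exact Finite.of_injective _ h

theorem nonempty_order : Nonempty (Order E) :=
  ⟨⟨Finset.univ.toList, Finset.nodup_toList _, fun e => Finset.mem_toList.2 (Finset.mem_univ e)⟩⟩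

/-- A measurable worst order. -/
theorem exists_worst (R : OnlineRule M) :
    ∃ π : R.Seed × (E → ℝ≥0) × (E → ℝ≥0) → Order E, (∀ o, MeasurableSet (π ⁻¹' {o})) ∧
      ∀ x o, R.gain x.1 x.2.1 x.2.2 (π x) ≤ R.gain x.1 x.2.1 x.2.2 o := by
  classical
  have := finite_order (E := E)
  have := nonempty_order (E := E)
  obtain ⟨f, hf⟩ := exists_surjective_nat (Order E)
  let p : R.Seed × (E → ℝ≥0) × (E → ℝ≥0) → ℕ → Prop := fun x n =>
    ∀ o, R.gain x.1 x.2.1 x.2.2 (f n) ≤ R.gain x.1 x.2.1 x.2.2 o
  have hp : ∀ x, ∃ n, p x n := by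
    intro x
    obtain ⟨o, ho⟩ := Finite.exists_min fun o : Order E => R.gain x.1 x.2.1 x.2.2 o
    obtain ⟨n, rfl⟩ := hf o
    exact ⟨n, ho⟩
  have hm : ∀ n, MeasurableSet {x | p x n} := by
    intro n
    simp only [p, Set.ofPred_forall]
    exact MeasurableSet.iInter fun o =>
      measurableSet_le (measurable_gain R _) (measurable_gain R _)
  refine ⟨fun x => f (Nat.find (hp x)), fun o => ?_, fun x => Nat.find_spec (hp x)⟩
  exact measurable_find hp hm (MeasurableSet.of_discrete (s := f ⁻¹' {o}))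

theorem Competitive.any {R : OnlineRule M} {c : ℝ≥0∞} (hR : Competitive R c) :
    CompetitiveAny R c := by
  intro Ω _ P D ρ S V h π
  obtain ⟨w, hw, hmin⟩ := exists_worst R
  refine (hR Ω P D ρ S V h w hw).trans (lintegral_mono fun ω => ?_)
  exact hmin (ρ ω, fun e => S e ω, fun e => V e ω) (π ω)

/-- The model exists for all laws with finite expected optimum. -/
theorem exists_model (R : OnlineRule M) (D : E → Measure ℝ≥0) (hD : ∀ e, IsProbabilityMeasure (D e))
    (hfin : (∫⁻ v, opt M v ∂(Measure.pi D)) < ∞) :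
    Model R (R.law.prod ((Measure.pi D).prod (Measure.pi D))) D (fun ω => ω.1)
      (fun e ω => ω.2.1 e) (fun e ω => ω.2.2 e) := by
  have hD' : ∀ i : E ⊕ E, IsProbabilityMeasure (Sum.elim D D i) := by
    rintro (e | e)
    · exact hD e
    · exact hD e
  have h2 := (measurePreserving_snd (μ := R.law) (ν := (Measure.pi D).prod (Measure.pi D)))
  have hS := (measurePreserving_fst (μ := Measure.pi D) (ν := Measure.pi D)).comp h2
  have hV := (measurePreserving_snd (μ := Measure.pi D) (ν := Measure.pi D)).comp h2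
  have hs : ∀ e, HasLaw (fun ω : R.Seed × (E → ℝ≥0) × (E → ℝ≥0) => ω.2.1 e) (D e)
      (R.law.prod ((Measure.pi D).prod (Measure.pi D))) := fun e =>
    ((measurePreserving_eval D e).comp hS).hasLaw
  have hv : ∀ e, HasLaw (fun ω : R.Seed × (E → ℝ≥0) × (E → ℝ≥0) => ω.2.2 e) (D e)
      (R.law.prod ((Measure.pi D).prod (Measure.pi D))) := fun e =>
    ((measurePreserving_eval D e).comp hV).hasLaw
  have h1 := (measurePreserving_fst (μ := R.law) (ν := (Measure.pi D).prod (Measure.pi D))).hasLaw
  refine ⟨inferInstance, hs, hv, ?_, h1, ?_, ?_⟩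
  · refine (iIndepFun_iff_hasLaw_pi_pi (μ := Sum.elim D D) ?_).2 ?_
    · rintro (e | e)
      · exact hs e
      · exact hv e
    · have h3 := (measurePreserving_sumPiEquivProdPi_symm (X := fun _ : E ⊕ E => ℝ≥0)
        (Sum.elim D D)).comp h2
      refine h3.hasLaw.congr (Filter.Eventually.of_forall fun ω => ?_)
      funext i
      rcases i with e | e <;> rfl
  · exact (indepFun_iff_hasLaw_prodMk_prod h1 h2.hasLaw).2 (MeasurePreserving.id _).hasLaw
  · rw [← hV.map_eq, lintegral_map (measurable_opt M) hV.measurable] at hfin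
    exact hfin

theorem competitive_iff (R : OnlineRule M) (c : ℝ≥0∞) : Competitive R c ↔ R.IsCompetitive c := by
  refine ⟨fun hR D hD hfin π hπ => ?_, competitive_of⟩
  have h := exists_model R D hD hfin
  have h1 := hR _ _ D _ _ _ h π hπ
  rw [h.opt_eq] at h1
  exact h1

theorem main : ∃ c : ℝ, 0 < c ∧ ∀ (E : Type) [Fintype E] (M : Matroid E), M.E = Set.univ →
    (∃ R : OnlineRule M, Competitive R (ENNReal.ofReal c) ∧ CompetitiveAny R (ENNReal.ofReal c)) ∧
      ENNReal.ofReal c ≤ bestRatio M ∧
      ∀ (R : OnlineRule M) (a : ℝ≥0∞), Competitive R a ↔ R.IsCompetitive a := by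
  obtain ⟨c, hc, h⟩ := Vale.Agent.P331.F.mainA
  refine ⟨c, hc, fun E _ M hM => ?_⟩
  obtain ⟨R, hR⟩ := h E M hM
  exact ⟨⟨R, competitive_of hR, (competitive_of hR).any⟩, le_sSup ⟨R, competitive_of hR⟩,
    competitive_iff⟩

end Vale.Agent.P331R
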